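import Vale.Agent.P239B48.Bt

/-!
The Singer conjecture in dimension four, for the universal cover and the fundamental group.
-/

namespace Vale.Agent.Results.P239.AFundamentalGroup

open Vale.Agent.P239C

universe u v w

/-- (0) For a group `Γ`, the Hilbert space `ℓ²(Γ)` with the left regular representation exists and
the representation is determined by the basis; `r.N` is the group von Neumann algebra in all usual
senses; the singular chains form a complex. Let `M` be a closed connected topological `n`-manifold.
(1) `M` has a universal cover. Let `p : X → M` be a universal cover and `Γ = π₁(M, p x₀)`. (2) `M`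
is aspherical if and only if `X` is contractible. (3) There is exactly one action of `Γ` on `X` by
deck transformations that is given by lifting loops, and every deck transformation comes from
exactly one element of `Γ`. (4) Q1: if `M` is aspherical and `n = 4`, the L2-Betti numbers of `X`
vanish in all degrees `q ≠ 2`. (5) If `M` is aspherical and `n ≥ 3`, they vanish for `q ≤ 1` and
`q ≥ n - 1`. -/
theorem result :
    (∀ (Γ : Type u) [Group Γ],
      (∃ (H : Type u) (_ : NormedAddCommGroup H) (_ : InnerProductSpace ℂ H)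
        (_ : CompleteSpace H), Nonempty (Regular Γ H)) ∧
      (∀ (H : Type w) [NormedAddCommGroup H] [InnerProductSpace ℂ H] [CompleteSpace H],
        (∀ b, ∃! r : Regular Γ H, r.b = b) ∧ ∀ r : Regular Γ H, r.Describes r.N) ∧
      ∀ (X : Type v) [TopologicalSpace X] [MulAction Γ X] [ContinuousConstSMul Γ X],
        IsComplex (bd Γ X)) ∧
    ∀ (n : ℕ) (M : Type u) [TopologicalSpace M] [T2Space M] [CompactSpace M] [ConnectedSpace M]
      [ChartedSpace (EuclideanSpace ℝ (Fin n)) M],
      (∃ (X : Type) (_ : TopologicalSpace X) (p : X → M), IsUniversalCover p) ∧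
      ∀ (X : Type v) [TopologicalSpace X] (p : X → M) (hp : IsUniversalCover p) (x₀ : X),
        (Aspherical.{v} M ↔ ContractibleSpace X) ∧ (∃! a, IsDeckAction hp.cov x₀ a) ∧
        ∀ (a : MulAction (FundamentalGroup M (p x₀)) X) (h : IsDeckAction hp.cov x₀ a),
          (∀ φ : X ≃ₜ X, (∀ x, p (φ x) = p x) → ∃! γ, ∀ x, a.smul γ x = φ x) ∧
          ∀ (H : Type w) [NormedAddCommGroup H] [InnerProductSpace ℂ H] [CompleteSpace H]
            (r : Regular (FundamentalGroup M (p x₀)) H), Aspherical.{v} M →
            haveI := h.cont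
            (n = 4 → ∀ q, q ≠ 2 → r.betti X q = 0) ∧
            (3 ≤ n → ∀ q, q ≤ 1 ∨ n ≤ q + 1 → r.betti X q = 0) := by
  refine ⟨fun Γ _ => ⟨exists_reg Γ, fun H _ _ _ => ⟨existsUnique_reg, describes⟩,
    fun X _ _ _ => isComplex Γ X⟩, fun n M _ _ _ _ _ => ?_⟩
  obtain ⟨h0, h⟩ := cover_main.{u, v, w} n M
  refine ⟨h0, fun X _ p hp x₀ => ?_⟩
  obtain ⟨h1, h2, h3⟩ := h X p hp x₀
  exact ⟨h1, h2, fun a k => ⟨(h3 a k).1, fun H _ _ _ r hM =>
    ⟨fun hn q hq => (h3 a k).2 H r hM (by omega) q (by omega), (h3 a k).2 H r hM⟩⟩⟩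

end Vale.Agent.Results.P239.AFundamentalGroup
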